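import Crest.Agent.X261.Fam.St
import Crest.Agent.X261.Plk.V
import Crest.Agent.R271.Weyl_399
import Crest.Agent.X261.Psh.Cvx
import Crest.Agent.R273.Defs_333
import Mathlib

-- ▼ part X261/Fam/HolA
section

/-!
# Row 261, package FAM, part Hol (helper24), file A : Weyl's lemma for Hilbert space valued maps
-/

set_option autoImplicit false
set_option linter.unusedSectionVars false

open Set Filter Topology MeasureTheory Metric
open scoped ComplexConjugate InnerProductSpace ContDiff NNReal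

namespace Crest.Agent.X261.Fam.Hol

open Crest.Agent.R275.Geo Crest.Agent.R275.EDR890 Crest.Agent.R273.Hess_333
open Crest.Agent.R271

noncomputable section

variable {n : ℕ} {H : Type} [NormedAddCommGroup H] [InnerProductSpace ℂ H] [CompleteSpace H]

/-- the coordinates, as a real linear equivalence -/
def eR (n : ℕ) : Cn n ≃L[ℝ] (Fin n → ℂ) := PiLp.continuousLinearEquiv 2 ℝ (fun _ : Fin n => ℂ)

/-- the coordinates, as a complex linear equivalence -/
def eC (n : ℕ) : Cn n ≃L[ℂ] (Fin n → ℂ) := PiLp.continuousLinearEquiv 2 ℂ (fun _ : Fin n => ℂ)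

theorem exists_map (n : ℕ) :
    ∃ c : ℝ≥0, Measure.map (eR n).symm volume = c • (volume : Measure (Cn n)) := by
  have := (eR n).symm.isAddHaarMeasure_map (volume : Measure (Fin n → ℂ))
  exact ⟨_, Measure.isAddLeftInvariant_eq_smul _ _⟩

theorem me_symm (n : ℕ) : MeasurableEmbedding (eR n).symm :=
  (eR n).symm.toHomeomorph.measurableEmbedding

theorem int_comp {W : Type*} [NormedAddCommGroup W] {f : Cn n → W} (hf : Integrable f) :
    Integrable (fun x => f ((eR n).symm x)) := by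
  obtain ⟨c, hc⟩ := exists_map n
  have h : Integrable f (Measure.map (eR n).symm volume) := by
    rw [hc]; exact hf.smul_measure_nnreal
  exact (me_symm n).integrable_map_iff.1 h

theorem int_comp_zero {W : Type*} [NormedAddCommGroup W] [NormedSpace ℝ W] {f : Cn n → W}
    (hf : ∫ z, f z = 0) : ∫ x, f ((eR n).symm x) = 0 := by
  obtain ⟨c, hc⟩ := exists_map n
  rw [← (me_symm n).integral_map, hc, integral_smul_nnreal_measure, hf, smul_zero]

theorem qmp (n : ℕ) : Measure.QuasiMeasurePreserving (eR n) volume volume := by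
  have := (eR n).isAddHaarMeasure_map (volume : Measure (Cn n))
  exact ⟨(eR n).continuous.measurable, Measure.absolutelyContinuous_isAddHaarMeasure _ _⟩

theorem wd_off {φ : Cn n → ℂ} {z : Cn n} (hz : z ∉ tsupport φ) (s : WI n) : wd s φ z = 0 := by
  have h : fderiv ℝ φ z = 0 := by
    by_contra h6
    exact hz (support_fderiv_subset ℝ h6)
  rw [wd, h, wdL_zero]

theorem cont_wd {φ : Cn n → ℂ} (hφ : ContDiff ℝ ∞ φ) (s : WI n) : Continuous (wd s φ) :=
  continuous_iff_continuousAt.2 fun _ => (contDiffAt_wd hφ.contDiffAt s).continuousAt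

theorem cs_wd {φ : Cn n → ℂ} (hc : HasCompactSupport φ) (s : WI n) :
    HasCompactSupport (wd s φ) :=
  hc.mono' fun z hz => by
    by_contra h
    exact hz (wd_off h s)

theorem contDiff_cu {χ : Cn n → ℝ} (hχ : ContDiff ℝ ∞ χ) : ContDiff ℝ ∞ (cu χ) :=
  Complex.ofRealCLM.contDiff.comp hχ

theorem tsupport_cu (χ : Cn n → ℝ) : tsupport (cu χ) = tsupport χ := by
  unfold tsupport
  congr 1
  ext z
  simp [cu]

theorem int_smul {ψ : Cn n → ℂ} (hψ : Continuous ψ) (hc : HasCompactSupport ψ) {f : Cn n → H}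
    (hf : Integrable f) : Integrable fun z => ψ z • f z := by
  obtain ⟨C, hC⟩ := hψ.bounded_above_of_compact_support hc
  exact hf.bdd_smul C hψ.aestronglyMeasurable (Eventually.of_forall hC)

/-- real test functions suffice -/
theorem cx_test {W : Set (Cn n)} {f : Cn n → H} (hf : Integrable f)
    (hw : ∀ χ : Cn n → ℝ, ContDiff ℝ ∞ χ → HasCompactSupport χ → tsupport χ ⊆ W → ∀ b,
      ∫ z, wd (true, b) (cu χ) z • f z = 0)
    {φ : Cn n → ℂ} (hφ : ContDiff ℝ ∞ φ) (hc : HasCompactSupport φ) (hs : tsupport φ ⊆ W)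
    (b : Fin n) : ∫ z, wd (true, b) φ z • f z = 0 := by
  have h1 : ContDiff ℝ ∞ fun z => (φ z).re := Complex.reCLM.contDiff.comp hφ
  have h2 : ContDiff ℝ ∞ fun z => (φ z).im := Complex.imCLM.contDiff.comp hφ
  have s1 : tsupport (fun z => (φ z).re) ⊆ tsupport φ :=
    closure_mono fun z hz h => hz (by simp [h])
  have s2 : tsupport (fun z => (φ z).im) ⊆ tsupport φ :=
    closure_mono fun z hz h => hz (by simp [h])
  have c1 : HasCompactSupport fun z => (φ z).re := hc.isCompact.of_isClosed_subset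
    (isClosed_tsupport _) s1
  have c2 : HasCompactSupport fun z => (φ z).im := hc.isCompact.of_isClosed_subset
    (isClosed_tsupport _) s2
  have e : φ = fun z => cu (fun z => (φ z).re) z + Complex.I • cu (fun z => (φ z).im) z := by
    funext z
    simp only [cu, smul_eq_mul]
    rw [mul_comm, Complex.re_add_im]
  have d1 := (contDiff_cu h1).differentiable (by simp)
  have d2 := (contDiff_cu h2).differentiable (by simp)
  have e2 : ∀ z, wd (true, b) φ z • f z = wd (true, b) (cu fun z => (φ z).re) z • f z +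
      Complex.I • (wd (true, b) (cu fun z => (φ z).im) z • f z) := fun z => by
    conv_lhs => rw [e]
    rw [wd_add (g := fun z => Complex.I • cu (fun z => (φ z).im) z) (d1 z)
      ((d2 z).const_smul Complex.I),
      wd_const_smul _ (d2 z), add_smul, smul_assoc]
  have k1 : HasCompactSupport (cu fun z => (φ z).re) := by
    rw [HasCompactSupport, tsupport_cu]; exact c1
  have k2 : HasCompactSupport (cu fun z => (φ z).im) := by
    rw [HasCompactSupport, tsupport_cu]; exact c2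
  simp_rw [e2]
  rw [integral_add (g := fun z => Complex.I • (wd (true, b) (cu fun z => (φ z).im) z • f z))
    (int_smul (cont_wd (contDiff_cu h1) _) (cs_wd k1 _) hf)
    ((int_smul (cont_wd (contDiff_cu h2) _) (cs_wd k2 _) hf).smul _), integral_smul,
    hw _ h1 c1 (s1.trans hs), hw _ h2 c2 (s2.trans hs), smul_zero, add_zero]

theorem dbar_eq (j : Fin n) (φ : (Fin n → ℂ) → ℂ) (x : Fin n → ℂ) :
    Weyl399.dbar j φ x = wd (true, j) (φ ∘ eR n) ((eR n).symm x) := by
  rw [wd, (eR n).comp_right_fderiv, ContinuousLinearEquiv.apply_symm_apply]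
  rfl

theorem weakHol {W : Set (Cn n)} {f : Cn n → H} (hf : Integrable f)
    (hw : ∀ χ : Cn n → ℝ, ContDiff ℝ ∞ χ → HasCompactSupport χ → tsupport χ ⊆ W → ∀ b,
      ∫ z, wd (true, b) (cu χ) z • f z = 0) (ξ : H) :
    Weyl399.WeakHol (fun x => ⟪ξ, f ((eR n).symm x)⟫_ℂ) ((eR n).symm ⁻¹' W) := by
  intro j φ h1 h2 h3
  have k1 : ContDiff ℝ ∞ (φ ∘ eR n) := h1.comp (eR n).contDiff
  have k2 : HasCompactSupport (φ ∘ eR n) := h2.comp_homeomorph (eR n).toHomeomorph
  have k3 : tsupport (φ ∘ eR n) ⊆ W := fun z hz => by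
    have h4 := h3 (tsupport_comp_subset_preimage φ (eR n).continuous hz)
    simpa using h4
  have h5 := int_comp_zero (cx_test hf hw k1 k2 k3 j)
  have h6 := int_comp (int_smul (cont_wd k1 (true, j)) (cs_wd k2 _) hf)
  have h7 := integral_inner (𝕜 := ℂ) h6 ξ
  rw [h5, inner_zero_right] at h7
  rw [← h7]
  refine integral_congr_ae (Eventually.of_forall fun x => ?_)
  simp only [inner_smul_right, dbar_eq, mul_comm]

/-- **Weyl's lemma**, Hilbert space valued, local form -/
theorem weyl_vec {W : Set (Cn n)} (hW : IsOpen W) {f : Cn n → H} (hf : Integrable f)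
    (hw : ∀ χ : Cn n → ℝ, ContDiff ℝ ∞ χ → HasCompactSupport χ → tsupport χ ⊆ W → ∀ b,
      ∫ z, wd (true, b) (cu χ) z • f z = 0) {z₀ : Cn n} (hz : z₀ ∈ W) :
    ∃ V, IsOpen V ∧ z₀ ∈ V ∧ V ⊆ W ∧ ∃ S : Cn n → H, DifferentiableOn ℂ S V ∧
      ∀ᵐ z, z ∈ V → f z = S z := by
  set F : (Fin n → ℂ) → H := fun x => f ((eR n).symm x) with hF
  have hFi : Integrable F := int_comp hf
  have hW' : IsOpen ((eR n).symm ⁻¹' W) := hW.preimage (eR n).symm.continuous
  have hu : ∀ ξ : H, Integrable fun x => ⟪ξ, F x⟫_ℂ := fun ξ => hFi.const_inner ξ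
  choose h hh hae using fun ξ : H => Weyl399.weyl hW'
    ((hu ξ).locallyIntegrable.locallyIntegrableOn _) (weakHol hf hw ξ)
  obtain ⟨R, hR, hRW⟩ := nhds_basis_closedBall.mem_iff.1
    (hW'.mem_nhds (show eR n z₀ ∈ (eR n).symm ⁻¹' W by simpa using hz))
  have hε : 0 < R / 2 := by positivity
  set S : (Fin n → ℂ) → H := fun x => ∫ w, (Weyl399.rho (R / 2) (x - w) : ℂ) • F w with hS
  have hb : ∀ x ∈ ball (eR n z₀) (R / 2), closedBall x (R / 2) ⊆ (eR n).symm ⁻¹' W :=
    fun x hx y hy => hRW (by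
      rw [mem_ball] at hx
      rw [mem_closedBall] at hy ⊢
      linarith [dist_triangle y x (eR n z₀)])
  have hSh : ∀ ξ : H, ∀ x ∈ ball (eR n z₀) (R / 2), ⟪ξ, S x⟫_ℂ = h ξ x := fun ξ x hx => by
    have hc : Continuous fun w => (Weyl399.rho (R / 2) (x - w) : ℂ) :=
      Complex.continuous_ofReal.comp
        ((Weyl399.contDiff_rho _).continuous.comp (continuous_const.sub continuous_id))
    obtain ⟨C, hC⟩ := (Weyl399.contDiff_rho (n := n) (R / 2)).continuous.bounded_above_of_compact_support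
      (Weyl399.hasCompactSupport_rho hε)
    have hi : Integrable fun w => (Weyl399.rho (R / 2) (x - w) : ℂ) • F w :=
      hFi.bdd_smul C hc.aestronglyMeasurable (Eventually.of_forall fun w => by
        rw [Complex.norm_real]; exact hC _)
    rw [hS, ← integral_inner (𝕜 := ℂ) hi ξ,
      ← Weyl399.mean_value hε (f := h ξ) fun y hy =>
        (hh ξ y (hb x hx hy)).differentiableAt (hW'.mem_nhds (hb x hx hy)), ← Weyl399.reg_eq,
      Weyl399.reg]
    refine integral_congr_ae ?_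
    filter_upwards [(ae_restrict_iff' hW'.measurableSet).1 (hae ξ)] with w hw'
    by_cases hm : w ∈ closedBall x (R / 2)
    · rw [← hw' (hb x hx hm), inner_smul_right, Complex.real_smul]
    · have : R / 2 ≤ ‖x - w‖ := by
        rw [mem_closedBall_iff_norm] at hm
        rw [norm_sub_rev]; linarith
      simp [Weyl399.rho_eq_zero hε this]
  have hsub : ball (eR n z₀) (R / 2) ⊆ (eR n).symm ⁻¹' W := fun x hx =>
    hb x hx (mem_closedBall_self hε.le)
  have hA : AnalyticOnNhd ℂ S (ball (eR n z₀) (R / 2)) :=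
    Plk.weak_hol isOpen_ball fun ξ => ((hh ξ).mono hsub).congr (hSh ξ)
  have hm : AEStronglyMeasurable (fun x => F x - S x) (volume.restrict (ball (eR n z₀) (R / 2))) :=
    hFi.1.restrict.sub (hA.continuousOn.aestronglyMeasurable measurableSet_ball)
  obtain ⟨t, ht, hat⟩ := hm.isSeparable_ae_range
  have h0 := ae_eq_zero_of_forall_dual_of_isSeparable ℂ ht (fun c => by
    filter_upwards [ae_restrict_of_ae_restrict_of_subset hsub
      (hae ((InnerProductSpace.toDual ℂ H).symm c)), ae_restrict_mem measurableSet_ball]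
      with x h1 h2
    rw [← InnerProductSpace.toDual_symm_apply, inner_sub_right, hSh _ x h2, ← h1]
    simp [hF]) hat
  refine ⟨eR n ⁻¹' ball (eR n z₀) (R / 2), isOpen_ball.preimage (eR n).continuous,
    mem_ball_self hε, fun z hz' => by simpa using hsub hz', fun z => S (eC n z),
    hA.differentiableOn.comp (eC n).differentiableOn fun z hz' => hz', ?_⟩
  filter_upwards [(qmp n).ae ((ae_restrict_iff' measurableSet_ball).1 h0)] with z h1 h2
  have h3 : f ((eR n).symm (eR n z)) = S (eR n z) := sub_eq_zero.1 (h1 h2)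
  rw [ContinuousLinearEquiv.symm_apply_apply] at h3
  exact h3

end

end Crest.Agent.X261.Fam.Hol
end

-- ▼ part X261/Fam/Hol
section

/-!
# Row 261, package FAM, part Hol (helper24) : `hol : HolStmt`
-/

set_option autoImplicit false
set_option linter.unusedSectionVars false

open Set Filter Topology MeasureTheory Metric
open scoped ComplexConjugate InnerProductSpace ContDiff NNReal

namespace Crest.Agent.X261.Fam

open Crest.Agent.R275.Geo Crest.Agent.R275.EDR890 Crest.Agent.R273.Hess_333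

noncomputable section

namespace Hol

variable {n : ℕ} {H : Type} [NormedAddCommGroup H] [InnerProductSpace ℂ H] [CompleteSpace H]

theorem norm_sq_lp {α : Type*} [MeasurableSpace α] {μ : Measure α} (F : Lp H 2 μ) :
    ‖F‖ ^ 2 = ∫ x, ‖F x‖ ^ 2 ∂μ := by
  have h := L2.inner_def (𝕜 := ℂ) F F
  simp only [inner_self_eq_norm_sq_to_K] at h
  have h2 : ∫ x, ((‖F x‖ : ℂ)) ^ 2 ∂μ = ((∫ x, ‖F x‖ ^ 2 ∂μ : ℝ) : ℂ) := by
    rw [← integral_complex_ofReal]
    simp
  have h3 : ((‖F‖ ^ 2 : ℝ) : ℂ) = ((∫ x, ‖F x‖ ^ 2 ∂μ : ℝ) : ℂ) := by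
    rw [← h2]
    simpa using h
  exact_mod_cast h3

theorem memLp_cpt {K : Set (Cn n)} (hK : IsCompact K) {g : Cn n → H} (hg : ContinuousOn g K) :
    MemLp g 2 (volume.restrict K) :=
  (memLp_two_iff_integrable_sq_norm (hg.aestronglyMeasurable hK.measurableSet)).2
    ((hg.norm.pow 2).integrableOn_compact hK)

/-- the `L²` limit -/
theorem exists_lim {α : Type*} [MeasurableSpace α] {μ : Measure α} {g : ℕ → α → H}
    (hm : ∀ k, MemLp (g k) 2 μ)
    (hc : ∀ η : ℝ, 0 < η → ∃ N, ∀ k ≥ N, ∀ l ≥ N, ∫ z, ‖g k z - g l z‖ ^ 2 ∂μ ≤ η) :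
    ∃ f : α → H, MemLp f 2 μ ∧ Tendsto (fun k => ∫ z, ‖g k z - f z‖ ^ 2 ∂μ) atTop (𝓝 0) := by
  have e : ∀ F G : Lp H 2 μ, ∀ u v : α → H, F =ᵐ[μ] u → G =ᵐ[μ] v →
      ‖F - G‖ ^ 2 = ∫ z, ‖u z - v z‖ ^ 2 ∂μ := fun F G u v h1 h2 => by
    rw [norm_sq_lp]
    refine integral_congr_ae ?_
    filter_upwards [Lp.coeFn_sub F G, h1, h2] with z h3 h4 h5
    rw [h3, Pi.sub_apply, h4, h5]
  have hC : CauchySeq fun k => (hm k).toLp (g k) := by
    refine Metric.cauchySeq_iff.2 fun ε hε => ?_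
    obtain ⟨N, hN⟩ := hc ((ε / 2) ^ 2) (by positivity)
    refine ⟨N, fun k hk l hl => ?_⟩
    have h1 := hN k hk l hl
    rw [← e _ _ _ _ (hm k).coeFn_toLp (hm l).coeFn_toLp] at h1
    rw [dist_eq_norm]
    have h2 := (pow_le_pow_iff_left₀ (norm_nonneg _) (by positivity) two_ne_zero).1 h1
    linarith
  obtain ⟨F, hF⟩ := cauchySeq_tendsto_of_complete hC
  refine ⟨F, Lp.memLp F, ?_⟩
  have h1 := (tendsto_iff_norm_sub_tendsto_zero.1 hF).pow 2
  rw [zero_pow two_ne_zero] at h1
  exact h1.congr fun k => e _ _ _ _ (hm k).coeFn_toLp EventuallyEq.rfl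

/-- `L²` convergence implies `L¹` convergence -/
theorem l1_of_l2 {α : Type*} [MeasurableSpace α] {μ : Measure α} [IsFiniteMeasure μ]
    {d : ℕ → α → H} (hm : ∀ k, MemLp (d k) 2 μ)
    (h : Tendsto (fun k => ∫ z, ‖d k z‖ ^ 2 ∂μ) atTop (𝓝 0)) :
    Tendsto (fun k => ∫ z, ‖d k z‖ ∂μ) atTop (𝓝 0) := by
  refine Metric.tendsto_atTop.2 fun ε hε => ?_
  set m := μ.real univ + 1 with hm'
  have hm0 : 0 < m := by positivity
  set t := ε / (2 * m) with ht
  have ht0 : 0 < t := by positivity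
  obtain ⟨N, hN⟩ := Metric.tendsto_atTop.1 h (t * ε / 2) (by positivity)
  refine ⟨N, fun k hk => ?_⟩
  have h1 := hN k hk
  rw [Real.dist_0_eq_abs, abs_of_nonneg (integral_nonneg fun _ => by positivity)] at h1 ⊢
  have hi := (memLp_two_iff_integrable_sq_norm (hm k).1).1 (hm k)
  have h2 : ∫ z, ‖d k z‖ ∂μ ≤ ∫ z, (t + t⁻¹ * ‖d k z‖ ^ 2) ∂μ := by
    refine integral_mono ((hm k).integrable one_le_two).norm
      ((integrable_const t).add (hi.const_mul _)) fun z => ?_
    have h3 : ‖d k z‖ * t ≤ (t + t⁻¹ * ‖d k z‖ ^ 2) * t := by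
      rw [add_mul, mul_right_comm, inv_mul_cancel₀ ht0.ne']
      nlinarith [sq_nonneg (‖d k z‖ - t), norm_nonneg (d k z)]
    exact le_of_mul_le_mul_right h3 ht0
  rw [integral_add (integrable_const t) (hi.const_mul _), integral_const, integral_const_mul,
    smul_eq_mul] at h2
  have h4 : μ.real univ * t ≤ ε / 2 := by
    have : m * t = ε / 2 := by rw [ht]; field_simp
    nlinarith
  have h5 : t⁻¹ * ∫ z, ‖d k z‖ ^ 2 ∂μ < ε / 2 := by
    rw [inv_mul_lt_iff₀ ht0]; linarith
  linarith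

theorem int_sq {K : Set (Cn n)} (hK : IsCompact K) {u v : Cn n → H} (hu : ContinuousOn u K)
    (hv : ContinuousOn v K) : IntegrableOn (fun z => ‖u z - v z‖ ^ 2) K :=
  ((hu.sub hv).norm.pow 2).integrableOn_compact hK

/-- the local statement -/
theorem loc {U : Set (Cn n)} {g : ℕ → Cn n → H} (hU : IsOpen U) (hg : ∀ k, ContinuousOn (g k) U)
    (hc : ∀ K ⊆ U, IsCompact K → ∀ η : ℝ, 0 < η → ∃ N, ∀ k ≥ N, ∀ l ≥ N,
      ∫ z in K, ‖g k z - g l z‖ ^ 2 ≤ η) {z₀ : Cn n} (hz : z₀ ∈ U) {V : Set (Cn n)}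
    (hV : V ∈ 𝓝 z₀) (hw : ∀ χ : Cn n → ℝ, ContDiff ℝ ∞ χ → HasCompactSupport χ →
      tsupport χ ⊆ V → ∀ b,
        Tendsto (fun k => ∫ z, wd (true, b) (cu χ) z • g k z) atTop (𝓝 0)) :
    ∃ W, IsOpen W ∧ z₀ ∈ W ∧ W ⊆ U ∧ ∃ S : Cn n → H, DifferentiableOn ℂ S W ∧
      ∀ K ⊆ W, IsCompact K → Tendsto (fun k => ∫ z in K, ‖g k z - S z‖ ^ 2) atTop (𝓝 0) := by
  obtain ⟨R, hR, hRU⟩ := nhds_basis_closedBall.mem_iff.1 (inter_mem (hU.mem_nhds hz) hV)
  have hK := isCompact_closedBall z₀ R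
  have hKU : closedBall z₀ R ⊆ U := hRU.trans inter_subset_left
  have hm : ∀ k, MemLp (g k) 2 (volume.restrict (closedBall z₀ R)) := fun k =>
    memLp_cpt hK ((hg k).mono hKU)
  have : IsFiniteMeasure (volume.restrict (closedBall z₀ R)) :=
    isFiniteMeasure_restrict.2 hK.measure_ne_top
  obtain ⟨f, hf, hl⟩ := exists_lim hm (hc _ hKU hK)
  have hl1 := l1_of_l2 (d := fun k z => g k z - f z) (fun k => (hm k).sub hf) hl
  have hfi : Integrable ((closedBall z₀ R).indicator f) :=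
    (integrable_indicator_iff measurableSet_closedBall).2 (hf.integrable one_le_two)
  obtain ⟨W, hW, hzW, hWb, S, hS, hae⟩ := weyl_vec (W := ball z₀ R) isOpen_ball hfi
    (fun χ h1 h2 h3 b => by
      have h4 : tsupport χ ⊆ closedBall z₀ R := h3.trans ball_subset_closedBall
      have k1 := cont_wd (contDiff_cu h1) (true, b)
      have k2 : HasCompactSupport (cu χ) := by rw [HasCompactSupport, tsupport_cu]; exact h2
      obtain ⟨C, hC⟩ := k1.bounded_above_of_compact_support (cs_wd k2 (true, b))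
      have off : ∀ u : Cn n → H, ∀ z ∉ closedBall z₀ R, wd (true, b) (cu χ) z • u z = 0 :=
        fun u z hz' => by
          rw [wd_off (by rw [tsupport_cu]; exact fun h => hz' (h4 h)), zero_smul]
      have ii : ∀ u : Cn n → H, MemLp u 2 (volume.restrict (closedBall z₀ R)) →
          Integrable (fun z => wd (true, b) (cu χ) z • u z) (volume.restrict (closedBall z₀ R)) :=
        fun u hu => (hu.integrable one_le_two).bdd_smul C k1.aestronglyMeasurable
          (Eventually.of_forall hC)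
      refine tendsto_nhds_unique ?_ (hw χ h1 h2 (h4.trans (hRU.trans inter_subset_right)) b)
      rw [← setIntegral_eq_integral_of_forall_compl_eq_zero (off _),
        setIntegral_congr_fun (g := fun z => wd (true, b) (cu χ) z • f z) measurableSet_closedBall
          fun z hz' => by simp only [indicator_of_mem hz']]
      refine Tendsto.congr (fun k => setIntegral_eq_integral_of_forall_compl_eq_zero (off (g k))) ?_
      rw [tendsto_iff_norm_sub_tendsto_zero]
      have h5 := hl1.const_mul C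
      rw [mul_zero] at h5
      refine squeeze_zero (fun _ => norm_nonneg _) (fun k => ?_) h5
      rw [← integral_sub (ii _ (hm k)) (ii _ hf), ← integral_const_mul]
      refine norm_integral_le_of_norm_le
        ((((hm k).sub hf).integrable one_le_two).norm.const_mul C) (Eventually.of_forall fun z => ?_)
      rw [← smul_sub, norm_smul]
      exact mul_le_mul_of_nonneg_right (hC z) (norm_nonneg _)) (mem_ball_self hR)
  have hWK : W ⊆ closedBall z₀ R := hWb.trans ball_subset_closedBall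
  refine ⟨W, hW, hzW, hWK.trans hKU, S, hS, fun K hKW hK' => ?_⟩
  refine squeeze_zero (fun _ => integral_nonneg fun _ => by positivity) (fun k => ?_) hl
  have e : ∫ z in K, ‖g k z - S z‖ ^ 2 = ∫ z in K, ‖g k z - f z‖ ^ 2 := by
    refine setIntegral_congr_ae hK'.measurableSet ?_
    filter_upwards [hae] with z h1 h2
    rw [← h1 (hKW h2), indicator_of_mem (hWK (hKW h2))]
  rw [e]
  exact setIntegral_mono_set
    ((memLp_two_iff_integrable_sq_norm ((hm k).sub hf).1).1 ((hm k).sub hf))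
    (Eventually.of_forall fun _ => by positivity) (hKW.trans hWK).eventuallyLE

/-- uniqueness of the limit -/
theorem uniq {W : Set (Cn n)} {g : ℕ → Cn n → H} (hW : IsOpen W)
    (hg : ∀ k, ContinuousOn (g k) W) {S T : Cn n → H} (hS : ContinuousOn S W)
    (hT : ContinuousOn T W)
    (h1 : ∀ K ⊆ W, IsCompact K → Tendsto (fun k => ∫ z in K, ‖g k z - S z‖ ^ 2) atTop (𝓝 0))
    (h2 : ∀ K ⊆ W, IsCompact K → Tendsto (fun k => ∫ z in K, ‖g k z - T z‖ ^ 2) atTop (𝓝 0)) :
    EqOn S T W := by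
  intro z hz
  obtain ⟨R, hR, hRW⟩ := nhds_basis_closedBall.mem_iff.1 (hW.mem_nhds hz)
  have hK := isCompact_closedBall z R
  have i0 := int_sq hK (hS.mono hRW) (hT.mono hRW)
  have h3 := ((h1 _ hRW hK).const_mul 2).add ((h2 _ hRW hK).const_mul 2)
  rw [mul_zero, add_zero] at h3
  have h4 : ∫ w in closedBall z R, ‖S w - T w‖ ^ 2 ≤ 0 := by
    refine ge_of_tendsto' h3 fun k => ?_
    have i1 := int_sq hK ((hg k).mono hRW) (hS.mono hRW)
    have i2 := int_sq hK ((hg k).mono hRW) (hT.mono hRW)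
    rw [← integral_const_mul, ← integral_const_mul, ← integral_add (i1.const_mul 2) (i2.const_mul 2)]
    refine integral_mono i0 ((i1.const_mul 2).add (i2.const_mul 2)) fun w => ?_
    have h5 : ‖S w - T w‖ ≤ ‖g k w - S w‖ + ‖g k w - T w‖ := by
      rw [show S w - T w = -(g k w - S w) + (g k w - T w) by abel]
      exact (norm_add_le _ _).trans (by rw [norm_neg])
    have h6 := pow_le_pow_left₀ (norm_nonneg _) h5 2
    nlinarith [sq_nonneg (‖g k w - S w‖ - ‖g k w - T w‖)]
  have h5 := (setIntegral_eq_zero_iff_of_nonneg_ae (Eventually.of_forall fun _ => by positivity)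
    i0).1 (le_antisymm h4 (integral_nonneg fun _ => by positivity))
  have hb : ball z R ⊆ W := ball_subset_closedBall.trans hRW
  refine Measure.eqOn_open_of_ae_eq (μ := volume) ?_ isOpen_ball (hS.mono hb) (hT.mono hb)
    (mem_ball_self hR)
  filter_upwards [ae_restrict_of_ae_restrict_of_subset ball_subset_closedBall h5] with w hw
  simpa [sub_eq_zero] using hw

end Hol

open Hol in
/-- **HOL** -/
theorem hol : HolStmt := by
  intro n H _ _ _ U g hU hg hc hw
  choose! V hV hw using hw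
  choose! W hW hzW hWU S hS hl using fun z (hz : z ∈ U) => loc hU hg hc hz (hV z hz) (hw z hz)
  have e : ∀ z ∈ U, ∀ y ∈ W z, S y y = S z y := fun z hz y hy => by
    have hy' := hWU z hz hy
    exact uniq ((hW y hy').inter (hW z hz))
      (fun k => (hg k).mono (inter_subset_left.trans (hWU y hy')))
      ((hS y hy').continuousOn.mono inter_subset_left)
      ((hS z hz).continuousOn.mono inter_subset_right)
      (fun K h1 h2 => hl y hy' K (h1.trans inter_subset_left) h2)
      (fun K h1 h2 => hl z hz K (h1.trans inter_subset_right) h2) ⟨hzW y hy', hy⟩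
  have hd : DifferentiableOn ℂ (fun y => S y y) U := fun z hz => by
    have h1 := (hW z hz).mem_nhds (hzW z hz)
    refine (((hS z hz) z (hzW z hz)).differentiableAt h1).congr_of_eventuallyEq
      ?_ |>.differentiableWithinAt
    filter_upwards [h1] with y hy using e z hz y hy
  refine ⟨fun y => S y y, hd, fun K hKU hK => ?_⟩
  have key : ∃ t, K ⊆ t ∧ t ⊆ U ∧ IsCompact t ∧
      Tendsto (fun k => ∫ z in t, ‖g k z - S z z‖ ^ 2) atTop (𝓝 0) := by
    refine hK.induction_on (p := fun s => ∃ t, s ⊆ t ∧ t ⊆ U ∧ IsCompact t ∧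
      Tendsto (fun k => ∫ z in t, ‖g k z - S z z‖ ^ 2) atTop (𝓝 0))
      ⟨∅, Subset.rfl, empty_subset _, isCompact_empty, by simp⟩
      (fun s s' h ⟨t, h1, h2⟩ => ⟨t, h.trans h1, h2⟩) ?_ ?_
    · rintro s s' ⟨t, h1, h2, h3, h4⟩ ⟨t', h1', h2', h3', h4'⟩
      refine ⟨t ∪ t', union_subset_union h1 h1', union_subset h2 h2', h3.union h3', ?_⟩
      have h5 := h4.add h4'
      rw [add_zero] at h5
      refine squeeze_zero (fun _ => integral_nonneg fun _ => by positivity) (fun k => ?_) h5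
      have i1 := int_sq h3 ((hg k).mono h2) (hd.continuousOn.mono h2)
      have i2 := int_sq h3' ((hg k).mono h2') (hd.continuousOn.mono h2')
      rw [← integral_add_measure i1 i2]
      exact integral_mono_measure (Measure.restrict_union_le t t')
        (Eventually.of_forall fun _ => by positivity) (Integrable.add_measure i1 i2)
    · intro z hz
      have hz' := hKU hz
      obtain ⟨R, hR, hRW⟩ := nhds_basis_closedBall.mem_iff.1 ((hW z hz').mem_nhds (hzW z hz'))
      refine ⟨closedBall z R, mem_nhdsWithin_of_mem_nhds (closedBall_mem_nhds z hR), _,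
        Subset.rfl, hRW.trans (hWU z hz'), isCompact_closedBall z R, ?_⟩
      refine (hl z hz' _ hRW (isCompact_closedBall z R)).congr fun k => ?_
      exact setIntegral_congr_fun measurableSet_closedBall fun y hy => by
        simp only [e z hz' y (hRW hy)]
  obtain ⟨t, h1, h2, h3, h4⟩ := key
  refine squeeze_zero (fun _ => integral_nonneg fun _ => by positivity) (fun k => ?_) h4
  exact setIntegral_mono_set (int_sq h3 ((hg k).mono h2) (hd.continuousOn.mono h2))
    (Eventually.of_forall fun _ => by positivity) h1.eventuallyLE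

end

end Crest.Agent.X261.Fam
end

-- ▼ part X261/Fam79/Liou
section

/-!
# Row 261, package FAM (helper79), file `Liou`: a Liouville theorem for measures

* `psh_const`  : a continuous psh function on the whole space which is bounded above is constant;
* `const_of_lev` : `u ≥ 0` of class `C²` with `2 |∂_v u|² ≤ u ∂∂̄u (v, v)` is constant;
* `ext_tests`  : smooth non-negative test functions determine a Radon measure;
* `liou`       : a Radon measure `E` on `ℂ^q` with `2 |∂_v E|² ≤ E · ∂∂̄E (v, v)` on test functions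
  is a multiple of the Lebesgue measure.
-/

set_option autoImplicit false
set_option linter.unusedSectionVars false

open Set Filter Topology Metric MeasureTheory Complex
open scoped ContDiff NNReal

noncomputable section

namespace Crest.Agent.X261.Fam79

open Crest.Agent.X261.Psh
open Crest.Agent.R257.HoB_843 (lvE)
open Crest.Agent.R281.Rich_710 (dav lvE_nonneg_of_le)

section psh

variable {E : Type*} [NormedAddCommGroup E] [NormedSpace ℂ E] {f : E → ℝ}

/-- **Liouville** for psh functions -/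
theorem psh_le (h : IsPsh univ fun x => (f x : EReal)) (hc : Continuous f) {b : ℝ}
    (hb : ∀ x, f x ≤ b) (x y : E) : f x ≤ f y := by
  rcases eq_or_ne x y with rfl | hxy
  · exact le_rfl
  have hρ : 0 < ‖x - y‖ := norm_pos_iff.2 (sub_ne_zero.2 hxy)
  refine le_of_forall_pos_le_add fun ε hε => ?_
  have h1 : ∀ᶠ z in 𝓝 y, f z < f y + ε / 2 :=
    hc.continuousAt.eventually (gt_mem_nhds (by linarith))
  obtain ⟨δ, hδ, h2⟩ := Metric.eventually_nhds_iff.1 h1
  set r := min (δ / 2) ‖x - y‖ with hr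
  have hr0 : 0 < r := lt_min (by linarith) hρ
  have hr1 : r ≤ ‖x - y‖ := min_le_right _ _
  have hr2 : r < δ := (min_le_left _ _).trans_lt (by linarith)
  set L := Real.log ‖x - y‖ - Real.log r with hL
  have hL0 : 0 ≤ L := sub_nonneg.2 (Real.log_le_log hr0 hr1)
  set s := ε / 2 / (L + 1) with hs
  have hs0 : 0 < s := by positivity
  have t : Tendsto (fun R : ℝ => s * Real.log R) atTop atTop :=
    Real.tendsto_log_atTop.const_mul_atTop hs0
  obtain ⟨R, hR1, hR2⟩ := ((t.eventually (eventually_ge_atTop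
    (b - (f y + ε / 2 - s * Real.log r)))).and (eventually_ge_atTop ‖x - y‖)).exists
  have h3 := h.annulus y hr0 (R := R) (fun _ _ _ => mem_univ _) (s := s)
    (m := f y + ε / 2 - s * Real.log r)
    (fun z hz => EReal.coe_le_coe_iff.2 (by
      have := h2 (y := z) (by rw [dist_eq_norm, hz]; exact hr2)
      linarith))
    (fun z _ => EReal.coe_le_coe_iff.2 (by linarith [hb z])) hr1 hR2
  have h4 := EReal.coe_le_coe_iff.1 h3
  have h5 : s * L ≤ ε / 2 := by
    rw [hs, div_mul_eq_mul_div, div_le_iff₀ (by positivity)]; nlinarith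
  have h6 : s * L = s * Real.log ‖x - y‖ - s * Real.log r := by rw [hL]; ring
  linarith

theorem psh_const (h : IsPsh univ fun x => (f x : EReal)) (hc : Continuous f) {b : ℝ}
    (hb : ∀ x, f x ≤ b) (x y : E) : f x = f y :=
  le_antisymm (psh_le h hc hb x y) (psh_le h hc hb y x)

variable [NormedSpace ℝ E] [IsScalarTower ℝ ℂ E] {u : E → ℝ}

/-- second derivative of `-(u + δ)⁻¹` -/
theorem d2_inv (hu : ContDiff ℝ 2 u) (h0 : ∀ x, u x ≠ 0) (x v : E) :
    fderiv ℝ (fderiv ℝ fun y => -(u y)⁻¹) x v v =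
      (u x * fderiv ℝ (fderiv ℝ u) x v v - 2 * fderiv ℝ u x v ^ 2) / u x ^ 3 := by
  have hd : Differentiable ℝ u := hu.differentiable (by simp)
  have hd' : Differentiable ℝ (fderiv ℝ u) :=
    (hu.fderiv_right (m := 1) (by norm_num)).differentiable (by simp)
  have h1 : fderiv ℝ (fun y => -(u y)⁻¹) = fun y => (u y ^ 2)⁻¹ • fderiv ℝ u y := by
    funext y
    have := ((hasDerivAt_inv (h0 y)).comp_hasFDerivAt y (hd y).hasFDerivAt).neg
    rw [show (fun y => -(u y)⁻¹) = -((fun z : ℝ => z⁻¹) ∘ u) from rfl, this.fderiv]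
    simp
  have h2 : HasFDerivAt (fun y => (u y ^ 2)⁻¹) ((-(2 / u x ^ 3)) • fderiv ℝ u x) x := by
    have h3 : HasDerivAt (fun z : ℝ => (z ^ 2)⁻¹) (-(2 / u x ^ 3)) (u x) := by
      refine ((hasDerivAt_pow 2 (u x)).inv (pow_ne_zero 2 (h0 x))).congr_deriv ?_
      have := h0 x
      simp only [Nat.cast_ofNat, Nat.add_one_sub_one, pow_one]
      field_simp
    exact h3.comp_hasFDerivAt x (hd x).hasFDerivAt
  rw [h1, (h2.fun_smul (hd' x).hasFDerivAt).fderiv]
  have := h0 x
  simp only [add_apply, smul_apply,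
    ContinuousLinearMap.smulRight_apply, smul_eq_mul]
  field_simp
  ring

/-- `u ≥ 0` with `2 |∂_v u|² ≤ u ∂∂̄u (v, v)` is constant -/
theorem const_of_lev (hu : ContDiff ℝ 2 u) (h0 : ∀ x, 0 ≤ u x)
    (h : ∀ x v, 2 * (fderiv ℝ u x v ^ 2 + fderiv ℝ u x (I • v) ^ 2) ≤ u x * (4 * lvE u x v))
    (x y : E) : u x = u y := by
  have hl : ∀ x v, 0 ≤ lvE u x v := fun x v => by
    rcases (h0 x).eq_or_lt with h1 | h1
    · refine lvE_nonneg_of_le hu.contDiffAt ⟨1, one_pos, fun s _ _ => ?_⟩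
      rw [← h1]
      exact Real.circleAverage_nonneg_of_nonneg fun _ _ => h0 _
    · have h2 : 0 ≤ u x * (4 * lvE u x v) := le_trans (by positivity) (h x v)
      have := nonneg_of_mul_nonneg_right h2
      by_contra h3
      nlinarith [mul_pos h1 (neg_pos.2 (not_le.1 h3))]
  have hp : ∀ x, 0 < u x + 1 := fun x => by linarith [h0 x]
  have hu1 : ContDiff ℝ 2 fun x => u x + 1 := hu.add contDiff_const
  have hg : ContDiff ℝ 2 fun x => -(u x + 1)⁻¹ := (hu1.inv fun x => (hp x).ne').neg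
  have e1 : fderiv ℝ (fun x => u x + 1) = fderiv ℝ u := funext fun x => fderiv_add_const 1
  have hs : IsPsh univ fun x => ((-(u x + 1)⁻¹ : ℝ) : EReal) :=
    isPsh_of_lvE fun x _ => ⟨hg.contDiffAt, fun v => by
      unfold lvE
      rw [d2_inv hu1 (fun x => (hp x).ne'), d2_inv hu1 (fun x => (hp x).ne'), e1, ← add_div]
      refine mul_nonneg (by norm_num) (div_nonneg ?_ (pow_pos (hp x) 3).le)
      have h1 := h x v
      have h2 := hl x v
      unfold lvE at h1 h2
      nlinarith⟩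
  have h3 := psh_const hs hg.continuous (b := 0)
    (fun x => neg_nonpos.2 (inv_pos.2 (hp x)).le) x y
  simpa using h3

end psh

section moll

variable {E F : Type*} [NormedAddCommGroup E] [NormedSpace ℝ E] [FiniteDimensional ℝ E]
  [MeasurableSpace E] [BorelSpace E] [NormedAddCommGroup F] [NormedSpace ℝ F] [CompleteSpace F]
  {μ ν : Measure E} [IsFiniteMeasureOnCompacts μ] [IsFiniteMeasureOnCompacts ν] {g : E → F}

/-- mollification of a measure -/
def U (μ : Measure E) (g : E → F) (x : E) : F := ∫ t, g (x - t) ∂μ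

theorem hcs_sub (hc : HasCompactSupport g) (x : E) : HasCompactSupport fun t => g (x - t) :=
  hc.comp_homeomorph (Homeomorph.subLeft x)

theorem int_sub (hg : Continuous g) (hc : HasCompactSupport g) (x : E) :
    Integrable (fun t => g (x - t)) μ :=
  (hg.comp (by fun_prop)).integrable_of_hasCompactSupport (hcs_sub hc x)

theorem contDiff_U {n : ℕ∞} (hg : ContDiff ℝ n g) (hc : HasCompactSupport g) :
    ContDiff ℝ n (U μ g) := by
  have h := hc.contDiff_convolution_right (μ := μ) (f := fun _ : E => (1 : ℝ))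
    (ContinuousLinearMap.lsmul ℝ ℝ) (locallyIntegrable_const 1) hg
  convert h using 1
  funext x
  simp [U, convolution_def]

theorem hasFDerivAt_U (hg : ContDiff ℝ 1 g) (hc : HasCompactSupport g) (x₀ : E) :
    HasFDerivAt (U μ g) (U μ (fderiv ℝ g) x₀) x₀ := by
  have hd : Continuous (fderiv ℝ g) := hg.continuous_fderiv one_ne_zero
  have hcd := hc.fderiv ℝ
  obtain ⟨C, hC⟩ := hd.bounded_above_of_compact_support hcd
  set K : Set E := (fun q : E × E => q.1 - q.2) '' closedBall x₀ 1 ×ˢ tsupport (fderiv ℝ g)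
  have hK : IsCompact K := ((isCompact_closedBall x₀ 1).prod hcd).image (by fun_prop)
  refine hasFDerivAt_integral_of_dominated_of_fderiv_le (F' := fun x t => fderiv ℝ g (x - t))
    (bound := K.indicator fun _ => C) (ball_mem_nhds x₀ one_pos)
    (Eventually.of_forall fun x => (int_sub hg.continuous hc x).aestronglyMeasurable)
    (int_sub hg.continuous hc x₀) (int_sub hd hcd x₀).aestronglyMeasurable
    (Eventually.of_forall fun t x hx => ?_)
    ((integrable_indicator_iff hK.measurableSet).2 (integrableOn_const hK.measure_lt_top.ne))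
    (Eventually.of_forall fun t x _ => ?_)
  · by_cases ht : t ∈ K
    · rw [indicator_of_mem ht]; exact hC _
    · rw [indicator_of_notMem ht, image_eq_zero_of_notMem_tsupport fun h =>
        ht ⟨(x, x - t), ⟨ball_subset_closedBall hx, h⟩, by simp⟩, norm_zero]
  · exact (((hg.differentiable one_ne_zero) (x - t)).hasFDerivAt.comp x
      ((hasFDerivAt_id x).sub_const t)).congr_fderiv (by ext; simp)

theorem fderiv_U (hg : ContDiff ℝ 1 g) (hc : HasCompactSupport g) :
    fderiv ℝ (U μ g) = U μ (fderiv ℝ g) := funext fun x => (hasFDerivAt_U hg hc x).fderiv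

theorem fderiv_U_apply (hg : ContDiff ℝ 1 g) (hc : HasCompactSupport g) (x v : E) :
    fderiv ℝ (U μ g) x v = ∫ t, fderiv ℝ g (x - t) v ∂μ := by
  rw [fderiv_U hg hc, U, ContinuousLinearMap.integral_apply
    (int_sub (hg.continuous_fderiv one_ne_zero) (hc.fderiv ℝ) x)]

theorem fderiv2_U_apply (hg : ContDiff ℝ 2 g) (hc : HasCompactSupport g) (x v w : E) :
    fderiv ℝ (fderiv ℝ (U μ g)) x v w = ∫ t, fderiv ℝ (fderiv ℝ g) (x - t) v w ∂μ := by
  have h1 : ContDiff ℝ 1 (fderiv ℝ g) := hg.fderiv_right (m := 1) (by norm_num)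
  rw [fderiv_U (hg.of_le (by norm_num)) hc, fderiv_U_apply h1 (hc.fderiv ℝ),
    ContinuousLinearMap.integral_apply]
  exact int_sub (g := fun z => fderiv ℝ (fderiv ℝ g) z v)
    ((h1.continuous_fderiv one_ne_zero).clm_apply continuous_const)
    ((hc.fderiv ℝ).fderiv_apply ℝ v) x

theorem fderiv_refl (hg : Differentiable ℝ g) (x : E) :
    fderiv ℝ (fun t => g (x - t)) = fun t => -fderiv ℝ g (x - t) := by
  funext t
  have := (hg (x - t)).hasFDerivAt.comp t ((hasFDerivAt_id t).const_sub x)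
  exact (this.congr_fderiv (by ext; simp)).fderiv

theorem fderiv2_refl (hg : ContDiff ℝ 2 g) (x : E) :
    fderiv ℝ (fderiv ℝ fun t => g (x - t)) = fun t => fderiv ℝ (fderiv ℝ g) (x - t) := by
  have h1 : Differentiable ℝ (fderiv ℝ g) :=
    (hg.fderiv_right (m := 1) (by norm_num)).differentiable one_ne_zero
  rw [fderiv_refl (hg.differentiable (by simp))]
  funext t
  rw [fderiv_fun_neg, fderiv_refl h1, neg_neg]

/-- smooth non-negative test functions determine a Radon measure -/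
theorem ext_tests (h : ∀ ψ : E → ℝ, ContDiff ℝ ∞ ψ → HasCompactSupport ψ → (∀ z, 0 ≤ ψ z) →
    ∫ z, ψ z ∂μ = ∫ z, ψ z ∂ν) : μ = ν := by
  refine Measure.OuterRegular.ext_isOpen_isBounded fun V hV hb => ?_
  obtain ⟨f, hs, hf, hr⟩ := hV.exists_contDiff_support_eq (n := ⊤)
  have h01 : ∀ z, f z ∈ Icc (0 : ℝ) 1 := fun z => hr ⟨z, rfl⟩
  have hK : IsCompact (closure V) := hb.isCompact_closure
  have hz : ∀ z, z ∉ V → f z = 0 := fun z hz => by
    rwa [← hs, Function.mem_support, not_not] at hz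
  have b0 : ∀ (k : ℕ) z, 0 ≤ 1 - (1 - f z) ^ k := fun k z =>
    sub_nonneg.2 (pow_le_one₀ (sub_nonneg.2 (h01 z).2) (by linarith [(h01 z).1]))
  have key : ∀ (m : Measure E) [IsFiniteMeasureOnCompacts m],
      Tendsto (fun k : ℕ => ∫ z, (1 - (1 - f z) ^ k) ∂m) atTop (𝓝 (m.real V)) := by
    intro m _
    have hm : m V ≠ ⊤ := ((measure_mono subset_closure).trans_lt hK.measure_lt_top).ne
    rw [← integral_indicator_one hV.measurableSet]
    refine tendsto_integral_of_dominated_convergence (V.indicator 1)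
      (fun k => Continuous.aestronglyMeasurable (by have := hf.continuous; fun_prop))
      ((integrable_indicator_iff hV.measurableSet).2 (integrableOn_const hm))
      (fun k => Eventually.of_forall fun z => ?_) (Eventually.of_forall fun z => ?_)
    · by_cases hzV : z ∈ V
      · rw [indicator_of_mem hzV, Real.norm_of_nonneg (b0 k z), Pi.one_apply]
        linarith [pow_nonneg (sub_nonneg.2 (h01 z).2) k]
      · simp [hz z hzV, hzV]
    · by_cases hzV : z ∈ V
      · have h1 : 0 < f z := (h01 z).1.lt_of_ne' (by rwa [← hs] at hzV)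
        have := (tendsto_pow_atTop_nhds_zero_of_lt_one (sub_nonneg.2 (h01 z).2)
          (by linarith : 1 - f z < 1)).const_sub 1
        simpa [hzV] using this
      · simp [hz z hzV, hzV]
  have h1 : μ.real V = ν.real V := by
    refine tendsto_nhds_unique (key μ) ((key ν).congr fun k => (h _ ?_ ?_ (b0 k)).symm)
    · exact contDiff_const.sub ((contDiff_const.sub hf).pow k)
    · exact HasCompactSupport.intro hK fun z hzV => by simp [hz z fun h => hzV (subset_closure h)]
  exact (ENNReal.toReal_eq_toReal_iff' ((measure_mono subset_closure).trans_lt hK.measure_lt_top).ne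
    ((measure_mono subset_closure).trans_lt hK.measure_lt_top).ne).1 h1

/-- if all mollifications are constant the measure is invariant -/
theorem inv_of_U (h : ∀ ψ : E → ℝ, ContDiff ℝ ∞ ψ → HasCompactSupport ψ → (∀ z, 0 ≤ ψ z) →
    ∀ x y, U μ ψ x = U μ ψ y) : μ.IsAddLeftInvariant := by
  refine ⟨fun a => ?_⟩
  have : IsFiniteMeasureOnCompacts (μ.map (a + ·)) :=
    Measure.IsFiniteMeasureOnCompacts.map μ (Homeomorph.addLeft a)
  refine ext_tests fun ψ h1 h2 h3 => ?_
  rw [integral_map (by fun_prop) h1.continuous.aestronglyMeasurable]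
  have h4 := h (fun z => ψ (0 - z)) (h1.comp (contDiff_const.sub contDiff_id)) (hcs_sub h2 0)
    (fun _ => h3 _) (-a) 0
  simpa [U, add_comm] using h4



end moll

section main

variable {E : Type*} [NormedAddCommGroup E] [NormedSpace ℂ E] [NormedSpace ℝ E]
  [IsScalarTower ℝ ℂ E] [FiniteDimensional ℝ E] [MeasurableSpace E] [BorelSpace E]

theorem inv_of_lev (μ : Measure E) [IsFiniteMeasureOnCompacts μ]
    (h : ∀ ψ : E → ℝ, ContDiff ℝ ∞ ψ → HasCompactSupport ψ → (∀ z, 0 ≤ ψ z) → ∀ v : E,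
      2 * ((∫ z, fderiv ℝ ψ z v ∂μ) ^ 2 + (∫ z, fderiv ℝ ψ z (I • v) ∂μ) ^ 2) ≤
        (∫ z, ψ z ∂μ) * ∫ z, 4 * lvE ψ z v ∂μ) : μ.IsAddLeftInvariant := by
  refine inv_of_U fun ψ h1 h2 h3 => ?_
  have h4 : ContDiff ℝ 2 ψ := contDiff_infty.1 h1 2
  have h5 : ContDiff ℝ 1 ψ := h4.of_le (by norm_num)
  refine const_of_lev (contDiff_U (n := 2) h4 h2) (fun x => integral_nonneg fun t => h3 _)
    fun x v => ?_
  have h6 := h (fun t => ψ (x - t)) (h1.comp (contDiff_const.sub contDiff_id)) (hcs_sub h2 x)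
    (fun _ => h3 _) v
  have hi : ∀ w : E, Integrable (fun t => fderiv ℝ (fderiv ℝ ψ) (x - t) w w) μ := fun w =>
    int_sub (g := fun z => fderiv ℝ (fderiv ℝ ψ) z w w)
      ((((h4.fderiv_right (m := 1) (by norm_num)).continuous_fderiv one_ne_zero).clm_apply
        continuous_const).clm_apply continuous_const)
      (((h2.fderiv ℝ).fderiv ℝ).comp_left (g := fun L : E →L[ℝ] E →L[ℝ] ℝ => L w w) (by simp)) x
  simp only [lvE, fderiv2_refl h4] at h6
  simp only [fderiv_refl (h5.differentiable one_ne_zero), neg_apply, integral_neg, neg_sq] at h6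
  simp only [lvE, fderiv_U_apply h5 h2, fderiv2_U_apply h4 h2]
  rw [← integral_add (hi v) (hi (I • v)), ← integral_const_mul, ← integral_const_mul]
  exact h6

end main

open Crest.Agent.R275.Geo Crest.Agent.R273.Defs_333

variable {q : ℕ}

theorem lev_eq_lvE (ψ : Cn q → ℝ) (z v : Cn q) : lev ψ z v = 4 * lvE ψ z v := by
  simp only [lev, lvE, iteratedFDeriv_two_apply]
  simp

/-- **Liouville for measures** -/
theorem liou (μ : Measure (Cn q)) [IsFiniteMeasureOnCompacts μ]
    (h : ∀ ψ : Cn q → ℝ, ContDiff ℝ ∞ ψ → HasCompactSupport ψ → (∀ z, 0 ≤ ψ z) → ∀ v : Cn q,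
      2 * ((∫ z, fderiv ℝ ψ z v ∂μ) ^ 2 + (∫ z, fderiv ℝ ψ z (I • v) ∂μ) ^ 2) ≤
        (∫ z, ψ z ∂μ) * ∫ z, lev ψ z v ∂μ) : ∃ c : ℝ≥0, μ = c • (volume : Measure (Cn q)) := by
  have := inv_of_lev μ (by simpa only [lev_eq_lvE] using h)
  exact ⟨_, Measure.isAddLeftInvariant_eq_smul μ volume⟩




end Crest.Agent.X261.Fam79
end
end

-- ▼ part X261/Fam79/Lio
section

/-!
# Row 261, package FAM (helper79), file `Lio`: `lio : LioStmt`
-/

set_option autoImplicit false

open Set Filter Topology MeasureTheory Complex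
open scoped ContDiff NNReal

noncomputable section

namespace Crest.Agent.X261.Fam79

open Crest.Agent.R275.Geo Crest.Agent.R275.EDR890 Crest.Agent.R273.Hess_333
open Crest.Agent.R273.Defs_333 Crest.Agent.R273.Fock_243 Crest.Agent.X261.Fam

variable {q : ℕ} {φ : Cn q → ℝ}

theorem quad {U N Λ : ℝ} (hU : 0 ≤ U) (hN : 0 ≤ N)
    (h : ∀ t : ℝ, 0 < t → N / 2 ≤ t / 2 * U + 1 / (4 * t) * (Λ / 4)) : 2 * N ^ 2 ≤ U * Λ := by
  have h1 : ∀ t : ℝ, 0 < t → 0 ≤ U * (t * t) + -N * t + Λ / 8 := fun t ht => by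
    have h2 := mul_le_mul_of_nonneg_left (h t ht) ht.le
    have h3 : t * (t / 2 * U + 1 / (4 * t) * (Λ / 4)) = t * t / 2 * U + Λ / 16 := by
      field_simp; ring
    rw [h3] at h2
    nlinarith
  have h2 : 0 ≤ Λ / 8 := by
    have h3 : Tendsto (fun t : ℝ => U * (t * t) + -N * t + Λ / 8) (𝓝[>] 0) (𝓝 (Λ / 8)) := by
      have h4 : Continuous fun t : ℝ => U * (t * t) + -N * t + Λ / 8 := by fun_prop
      simpa using (h4.tendsto 0).mono_left nhdsWithin_le_nhds
    exact ge_of_tendsto h3 (eventually_nhdsWithin_of_forall h1)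
  have h3 := discrim_le_zero (a := U) (b := -N) (c := Λ / 8) fun t => by
    rcases lt_or_ge 0 t with ht | ht
    · exact h1 t ht
    · nlinarith [mul_nonneg hU (mul_self_nonneg t), mul_nonneg hN (neg_nonneg.2 ht)]
  unfold discrim at h3
  nlinarith

theorem lev_clm (hφ : ContDiff ℝ ∞ φ) (T : Cn q →L[ℂ] Cn q) (z w : Cn q) :
    lev (fun x => φ (T x)) z w = lev φ (T z) (T w) := by
  have h := (T.restrictScalars ℝ).iteratedFDeriv_comp_right (contDiff_infty.1 hφ 2) z (i := 2) le_rfl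
  have e : (fun x => φ (T x)) = φ ∘ T.restrictScalars ℝ := rfl
  have h2 : ∀ y : Cn q, (fun i => T.restrictScalars ℝ (![y, y] i)) = ![T y, T y] := fun y => by
    funext i; fin_cases i <;> rfl
  simp only [lev, e, h, ContinuousMultilinearMap.compContinuousLinearMap_apply, h2, map_smul]
  rfl

theorem lev_rsmul (φ : Cn q → ℝ) (z w : Cn q) (s : ℝ) :
    lev φ z ((s : ℂ) • w) = s ^ 2 * lev φ z w := by
  have e : ∀ y : Cn q, (s : ℂ) • y = s • y := fun y => algebraMap_smul ℂ s y
  simp only [lev, iteratedFDeriv_two_apply, Matrix.cons_val_zero, Matrix.cons_val_one,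
    smul_comm I s w, e, map_smul, smul_apply, smul_eq_mul]
  ring

theorem trace_hess (hφ : ContDiff ℝ ∞ φ) (z : Cn q) :
    (hess φ z).trace.re = ∑ j, lev φ z (EuclideanSpace.single j 1) / 4 := by
  rw [Matrix.trace, Complex.re_sum]
  refine Finset.sum_congr rfl fun j _ => ?_
  rw [← Crest.Agent.R273.HessB_333.hq_re hφ.contDiffAt]
  simp [hq]

theorem wd_cu (hφ : ContDiff ℝ ∞ φ) (z : Cn q) (k : Fin q) :
    wd (true, k) (cu φ) z = (1 / 2 : ℂ) * ((fderiv ℝ φ z (EuclideanSpace.single k 1) : ℝ) +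
      (fderiv ℝ φ z (I • EuclideanSpace.single k 1) : ℝ) * I) := by
  have h := (ofRealCLM.hasFDerivAt.comp z (hφ.differentiable (by simp) z).hasFDerivAt).fderiv
  have hI : (EuclideanSpace.single k I : Cn q) = I • EuclideanSpace.single k (1 : ℂ) := by
    ext b; simp
  rw [wd, show cu φ = ofRealCLM ∘ φ from rfl, h, wdL, hI]
  simp [cI, mul_comm]

theorem int_lev' (ν : Measure (Cn q)) [IsFiniteMeasureOnCompacts ν] (hφ : ContDiff ℝ ∞ φ)
    (hc : HasCompactSupport φ) (w : Cn q) : Integrable (fun z => lev φ z w) ν := by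
  have hg : ContDiff ℝ 2 φ := contDiff_infty.1 hφ 2
  have hi : ∀ w : Cn q, Integrable (fun t => fderiv ℝ (fderiv ℝ φ) t w w) ν := fun w =>
    ((((hg.fderiv_right (m := 1) (by norm_num)).continuous_fderiv one_ne_zero).clm_apply
      continuous_const).clm_apply continuous_const).integrable_of_hasCompactSupport
      (((hc.fderiv ℝ).fderiv ℝ).comp_left (g := fun L : Cn q →L[ℝ] Cn q →L[ℝ] ℝ => L w w) (by simp))
  simp only [lev, iteratedFDeriv_two_apply, Matrix.cons_val_zero, Matrix.cons_val_one]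
  exact (hi w).add (hi _)

theorem mL_mul (L P : Mt q) (x : Cn q) : mL (L * P) x = mL L (mL P x) := by
  simp [mL, map_mul]

theorem mL_one (x : Cn q) : mL (1 : Mt q) x = x := by simp [mL]

/-- **LIO** -/
theorem lio : LioStmt := by
  intro q ν _ h
  refine liou ν fun φ hφ hc h0 v => ?_
  rcases eq_or_ne v 0 with rfl | hv
  · simp [lev, iteratedFDeriv_two_apply]
  obtain ⟨k, hk⟩ : ∃ k, v k ≠ 0 := by
    by_contra h1
    exact hv (by ext k; exact not_not.1 fun h2 => h1 ⟨k, h2⟩)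
  set A := ∫ z, fderiv ℝ φ z v ∂ν
  set B := ∫ z, fderiv ℝ φ z (I • v) ∂ν
  have hd : ∀ w, Integrable (fun z => fderiv ℝ φ z w) ν := fun w =>
    ((hφ.continuous_fderiv (by simp)).clm_apply continuous_const).integrable_of_hasCompactSupport
      (hc.fderiv_apply ℝ w)
  set R := ∑ j ∈ Finset.univ.erase k, (∫ z, lev φ z (EuclideanSpace.single j 1) ∂ν) / 4
  have key : ∀ t : ℝ, 0 < t → ∀ s : ℝ, 0 < s → ‖(A : ℂ) + B * I‖ / 2 ≤
      t / 2 * ∫ z, φ z ∂ν + 1 / (4 * t) * ((∫ z, lev φ z v ∂ν) / 4 + s ^ 2 * R) := by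
    intro t ht s hs
    set P : Mt q := ((s : ℂ) • (1 : Mt q)).updateCol k fun a => v a with hP
    have hdet : P.det ≠ 0 := by
      rw [hP, ← Matrix.cramer_apply, Matrix.cramer_smul, Matrix.cramer_one]
      simpa using ⟨fun h1 => absurd h1 hs.ne', hk⟩
    have hu : IsUnit P.det := hdet.isUnit
    have h1 : ∀ x, mL P (mL P⁻¹ x) = x := fun x => by
      rw [← mL_mul, Matrix.mul_nonsing_inv _ hu, mL_one]
    have h2 : ∀ x, mL P⁻¹ (mL P x) = x := fun x => by
      rw [← mL_mul, Matrix.nonsing_inv_mul _ hu, mL_one]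
    have hPk : mL P (EuclideanSpace.single k 1) = v := by
      ext a; simp [mL_apply, hP]
    have hPj : ∀ j ∈ Finset.univ.erase k,
        mL P (EuclideanSpace.single j 1) = (s : ℂ) • EuclideanSpace.single j 1 := fun j hj => by
      ext a
      simp [mL_apply, hP, Matrix.updateCol_ne (Finset.ne_of_mem_erase hj), Matrix.one_apply]
    have hs' : ContDiff ℝ ∞ fun x => φ (mL P x) := hφ.comp ((mL P).restrictScalars ℝ).contDiff
    have hc' : HasCompactSupport fun x => φ (mL P x) :=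
      hc.comp_homeomorph (⟨⟨mL P, mL P⁻¹, h2, h1⟩, (mL P).continuous, (mL P⁻¹).continuous⟩ :
        Cn q ≃ₜ Cn q)
    have hf : ∀ x w, fderiv ℝ (fun x => φ (mL P x)) (mL P⁻¹ x) w = fderiv ℝ φ x (mL P w) := by
      intro x w
      have := (hφ.differentiable (by simp) (mL P (mL P⁻¹ x))).hasFDerivAt.comp (mL P⁻¹ x)
        ((mL P).restrictScalars ℝ).hasFDerivAt
      rw [show (fun x => φ (mL P x)) = φ ∘ mL P from rfl, this.fderiv, h1]
      rfl
    have h3 := h P⁻¹ (Matrix.isUnit_nonsing_inv_det P hu).ne_zero _ hs' hc' (fun _ => h0 _) k t ht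
    simp only [wd_cu hs', trace_hess hs', lev_clm hφ, hf, h1, map_smul, hPk] at h3
    have hd' : ∀ w, Integrable (fun z => ((fderiv ℝ φ z w : ℝ) : ℂ)) ν := fun w => (hd w).ofReal
    rw [integral_const_mul, integral_add (hd' v) ((hd' _).mul_const I),
      integral_mul_const, integral_complex_ofReal, integral_complex_ofReal, norm_mul,
      integral_finsetSum _ fun j _ => (int_lev' ν hφ hc _).div_const 4,
      ← Finset.add_sum_erase _ _ (Finset.mem_univ k), hPk, integral_div] at h3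
    have h4 : ∑ j ∈ Finset.univ.erase k, ∫ z, lev φ z (mL P (EuclideanSpace.single j 1)) / 4 ∂ν =
        s ^ 2 * R := by
      rw [Finset.mul_sum]
      refine Finset.sum_congr rfl fun j hj => ?_
      simp only [hPj j hj, lev_rsmul, integral_div, integral_const_mul, mul_div_assoc]
    rw [h4] at h3
    refine le_trans (le_of_eq ?_) h3
    simp only [one_div, norm_inv, Complex.norm_ofNat]
    rw [div_eq_inv_mul]
  have h5 := quad (N := ‖(A : ℂ) + B * I‖) (Λ := ∫ z, lev φ z v ∂ν) (integral_nonneg h0)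
    (norm_nonneg _) fun t ht => by
    have h6 : Continuous fun s : ℝ =>
        t / 2 * ∫ z, φ z ∂ν + 1 / (4 * t) * ((∫ z, lev φ z v ∂ν) / 4 + s ^ 2 * R) := by fun_prop
    have h7 := (h6.tendsto 0).mono_left (nhdsWithin_le_nhds (s := Ioi 0))
    simp only [ne_eq, OfNat.ofNat_ne_zero, not_false_eq_true, zero_pow, zero_mul, add_zero] at h7
    exact ge_of_tendsto h7 (eventually_nhdsWithin_of_forall (key t ht))
  rwa [Complex.sq_norm, Complex.normSq_add_mul_I] at h5

end Crest.Agent.X261.Fam79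
end
end

-- ▼ part X261/Fam79/Min

/-!
# Row 261, package FAM (helper79), file `Min`: abstract minimisation and the limit measure

* `BF T b`, `Af T V A`, `mn`, `ex` : symmetric bilinear forms, affine sets, infimum, excess;
* `par`, `el`, `near` : parallelogram law, Euler-Lagrange inequality, approximating forms;
* `QF T B`, `Loc`     : forms with a weight, localisation;
* `exists_glob`       : global minimising sequence and the limit measure.
-/

set_option autoImplicit false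
set_option linter.unusedSectionVars false

open Set Filter Topology MeasureTheory
open scoped ContDiff CompactlySupported

noncomputable section

namespace Crest.Agent.X261.Fam79

variable {W : Type*} [AddCommGroup W] [Module ℝ W] {T V : Submodule ℝ W} {A : Set W}
  {b : W → W → ℝ} {f g h u : W}

/-- symmetric bilinear form on `T` -/
structure BF (T : Submodule ℝ W) (b : W → W → ℝ) : Prop where
  symm : ∀ f ∈ T, ∀ g ∈ T, b f g = b g f
  add : ∀ f ∈ T, ∀ g ∈ T, ∀ h ∈ T, b (f + g) h = b f h + b g h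
  smul : ∀ c : ℝ, ∀ f ∈ T, ∀ h ∈ T, b (c • f) h = c * b f h

/-- positive symmetric bilinear form on `T` -/
structure PF (T : Submodule ℝ W) (b : W → W → ℝ) : Prop extends BF T b where
  pos : ∀ f ∈ T, 0 ≤ b f f

/-- affine subset of `T` with direction `V` -/
structure Af (T V : Submodule ℝ W) (A : Set W) : Prop where
  le : V ≤ T
  sub : ∀ f ∈ A, f ∈ T
  ne : A.Nonempty
  diff : ∀ f ∈ A, ∀ g ∈ A, f - g ∈ V
  add : ∀ f ∈ A, ∀ u ∈ V, f + u ∈ A

/-- the infimum -/
def mn (b : W → W → ℝ) (A : Set W) : ℝ := sInf ((fun f => b f f) '' A)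

/-- the excess -/
def ex (b : W → W → ℝ) (A : Set W) (f : W) : ℝ := b f f - mn b A

theorem BF.sq (H : BF T b) (hf : f ∈ T) (hg : g ∈ T) (s t : ℝ) :
    b (s • f + t • g) (s • f + t • g) = s ^ 2 * b f f + 2 * s * t * b g f + t ^ 2 * b g g := by
  have h1 := T.smul_mem s hf
  have h2 := T.smul_mem t hg
  have h3 := T.add_mem h1 h2
  rw [H.add _ h1 _ h2 _ h3, H.smul _ _ hf _ h3, H.smul _ _ hg _ h3, H.symm _ hf _ h3,
    H.symm _ hg _ h3, H.add _ h1 _ h2 _ hf, H.add _ h1 _ h2 _ hg, H.smul _ _ hf _ hf,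
    H.smul _ _ hg _ hf, H.smul _ _ hf _ hg, H.smul _ _ hg _ hg, H.symm _ hf _ hg]
  ring

theorem BF.sq_add (H : BF T b) (hf : f ∈ T) (hg : g ∈ T) (t : ℝ) :
    b (f + t • g) (f + t • g) = b f f + 2 * t * b g f + t ^ 2 * b g g := by
  simpa using H.sq hf hg 1 t

theorem BF.sq_add' (H : BF T b) (hf : f ∈ T) (hg : g ∈ T) :
    b (f + g) (f + g) = b f f + 2 * b g f + b g g := by
  simpa using H.sq hf hg 1 1

theorem BF.sq_sub (H : BF T b) (hf : f ∈ T) (hg : g ∈ T) :
    b (f - g) (f - g) = b f f - 2 * b g f + b g g := by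
  have := H.sq hf hg 1 (-1)
  simp only [one_smul, neg_smul, ← sub_eq_add_neg] at this
  rw [this]; ring

theorem BF.sub (H : BF T b) (hf : f ∈ T) (hg : g ∈ T) (hh : h ∈ T) :
    b (f - g) h = b f h - b g h := by
  have := H.add _ (T.sub_mem hf hg) _ hg _ hh
  rw [sub_add_cancel] at this
  linarith

theorem BF.diff (H : BF T b) (hf : f ∈ T) (hg : g ∈ T) :
    b f f - b g g = b (f - g) (f + g) := by
  rw [H.sub hf hg (T.add_mem hf hg), H.symm _ hf _ (T.add_mem hf hg),
    H.symm _ hg _ (T.add_mem hf hg), H.add _ hf _ hg _ hf, H.add _ hf _ hg _ hg, H.symm _ hf _ hg]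
  ring

theorem abs_le_sqrt {x y z : ℝ} (hy : 0 ≤ y) (h : ∀ t : ℝ, 0 ≤ y + 2 * t * x + t ^ 2 * z) :
    |x| ≤ √y * √z := by
  have h1 := discrim_le_zero (a := z) (b := 2 * x) (c := y) fun t => by nlinarith [h t]
  unfold discrim at h1
  rw [← Real.sqrt_mul hy]
  exact Real.abs_le_sqrt (by nlinarith)

/-- Cauchy-Schwarz -/
theorem PF.cs (H : PF T b) (hf : f ∈ T) (hg : g ∈ T) : |b g f| ≤ √(b f f) * √(b g g) :=
  abs_le_sqrt (H.pos f hf) fun t => by
    rw [← H.sq_add hf hg]; exact H.pos _ (T.add_mem hf (T.smul_mem t hg))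

theorem mn_le (H : PF T b) (a : Af T V A) (hf : f ∈ A) : mn b A ≤ b f f :=
  csInf_le ⟨0, by rintro _ ⟨g, hg, rfl⟩; exact H.pos g (a.sub g hg)⟩ ⟨f, hf, rfl⟩


theorem ex_nonneg (H : PF T b) (a : Af T V A) (hf : f ∈ A) : 0 ≤ ex b A f :=
  sub_nonneg.2 (mn_le H a hf)

theorem exists_ex (b : W → W → ℝ) (a : Af T V A) {η : ℝ} (hη : 0 < η) : ∃ f ∈ A, ex b A f ≤ η := by
  obtain ⟨_, ⟨f, hf, rfl⟩, h1⟩ := exists_lt_of_csInf_lt (a.ne.image fun f => b f f)
    (lt_add_of_pos_right _ hη)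
  exact ⟨f, hf, by unfold ex mn; linarith⟩

/-- a minimising sequence -/
theorem exists_seq (H : PF T b) (a : Af T V A) :
    ∃ F : ℕ → W, (∀ i, F i ∈ A) ∧ Tendsto (fun i => ex b A (F i)) atTop (𝓝 0) := by
  choose F h1 h2 using fun i : ℕ => exists_ex b a (Nat.one_div_pos_of_nat (n := i))
  exact ⟨F, h1, squeeze_zero (fun i => ex_nonneg H a (h1 i)) h2
    tendsto_one_div_add_atTop_nhds_zero_nat⟩

/-- parallelogram law -/
theorem par (H : PF T b) (a : Af T V A) (hf : f ∈ A) (hg : g ∈ A) :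
    b (f - g) (f - g) ≤ 2 * ex b A f + 2 * ex b A g := by
  have h1 := mn_le H a (a.add g hg _ (V.smul_mem (1 / 2 : ℝ) (a.diff f hf g hg)))
  rw [show g + (1 / 2 : ℝ) • (f - g) = (1 / 2 : ℝ) • f + (1 / 2 : ℝ) • g by module,
    H.sq (a.sub f hf) (a.sub g hg)] at h1
  rw [H.sq_sub (a.sub f hf) (a.sub g hg)]
  unfold ex
  linarith

/-- Euler-Lagrange inequality -/
theorem el (H : PF T b) (a : Af T V A) (hf : f ∈ A) (hu : u ∈ V) :
    |b u f| ≤ √(ex b A f) * √(b u u) :=
  abs_le_sqrt (ex_nonneg H a hf) fun t => by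
    have h1 := mn_le H a (a.add f hf _ (V.smul_mem t hu))
    rw [H.sq_add (a.sub f hf) (a.le hu)] at h1
    unfold ex
    linarith

/-- approximating forms -/
theorem near (H : PF T b) (a : Af T V A) {κ : Type*} {l : Filter κ} {be : κ → W → W → ℝ} {c : ℝ}
    (hc : 0 < c) (hle : ∀ᶠ ε in l, ∀ f ∈ A, c * b f f ≤ be ε f f)
    (ht : ∀ f ∈ A, Tendsto (fun ε => be ε f f) l (𝓝 (c * b f f))) {η : ℝ} (hη : 0 < η) :
    ∃ δ, 0 < δ ∧ ∀ᶠ ε in l, ∀ F ∈ A, ex (be ε) A F ≤ δ →
      be ε F F - c * b F F ≤ η ∧ ex b A F ≤ η ∧ be ε F F ≤ c * mn b A + η := by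
  set δ := min η (c * η) / 3 with hδ
  have hδ0 : 0 < δ := by positivity
  have h1 : 3 * δ ≤ η := by rw [hδ]; linarith [min_le_left η (c * η)]
  have h2 : 3 * δ ≤ c * η := by rw [hδ]; linarith [min_le_right η (c * η)]
  obtain ⟨f, hf, h3⟩ := exists_ex b a (div_pos hδ0 hc)
  have h4 : c * b f f ≤ c * mn b A + δ := by
    rw [le_div_iff₀ hc] at h3
    unfold ex at h3
    linarith
  refine ⟨δ, hδ0, ?_⟩
  filter_upwards [hle, (ht f hf).eventually (gt_mem_nhds (lt_add_of_pos_right _ hδ0))]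
    with ε h5 h6 F hF h7
  have h8 : mn (be ε) A ≤ be ε f f := csInf_le ⟨0, by
    rintro _ ⟨g, hg, rfl⟩
    exact (mul_nonneg hc.le (H.pos g (a.sub g hg))).trans (h5 g hg)⟩ ⟨f, hf, rfl⟩
  have h9 := mul_le_mul_of_nonneg_left (mn_le H a hF) hc.le
  have h10 := h5 F hF
  unfold ex at h7 ⊢
  refine ⟨by linarith, le_of_mul_le_mul_left ?_ hc, by linarith⟩
  rw [mul_sub]
  linarith

section weight

variable {Y : Type*} [NormedAddCommGroup Y] [NormedSpace ℝ Y] [FiniteDimensional ℝ Y]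
  {B : (Y → ℝ) → W → W → ℝ} {w w' χ χ' : Y → ℝ}

/-- continuous with compact support -/
def Cc (w : Y → ℝ) : Prop := Continuous w ∧ HasCompactSupport w

theorem Cc.add (h : Cc w) (h' : Cc w') : Cc fun y => w y + w' y := ⟨h.1.add h'.1, h.2.add h'.2⟩

theorem Cc.mul (h : Cc w) (h' : Continuous w') : Cc fun y => w y * w' y :=
  ⟨h.1.mul h', h.2.mul_right⟩

theorem Cc.smul (h : Cc w) (c : ℝ) : Cc fun y => c * w y :=
  ⟨continuous_const.mul h.1, HasCompactSupport.mul_left (f := fun _ => c) h.2⟩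

/-- cut-off functions -/
structure Cu (χ : Y → ℝ) : Prop where
  sm : ContDiff ℝ ∞ χ
  cpt : HasCompactSupport χ
  nn : ∀ y, 0 ≤ χ y
  le : ∀ y, χ y ≤ 1

theorem Cu.cc (h : Cu χ) : Cc χ := ⟨h.sm.continuous, h.cpt⟩

/-- forms with a weight -/
structure QF (T : Submodule ℝ W) (B : (Y → ℝ) → W → W → ℝ) : Prop where
  bf : ∀ w, Cc w → BF T (B w)
  wadd : ∀ w w', Cc w → Cc w' → ∀ f ∈ T, ∀ g ∈ T,
    B (fun y => w y + w' y) f g = B w f g + B w' f g
  wsmul : ∀ w, Cc w → ∀ c : ℝ, ∀ f ∈ T, ∀ g ∈ T, B (fun y => c * w y) f g = c * B w f g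
  pos : ∀ w, Cc w → (∀ y, 0 ≤ w y) → ∀ f ∈ T, 0 ≤ B w f f

/-- localisation -/
def Loc (T V : Submodule ℝ W) (B : (Y → ℝ) → W → W → ℝ) : Prop :=
  ∀ χ, Cu χ → ∀ u ∈ V, ∃ u' ∈ V, ∀ w, Cc w → ∀ g ∈ T, B w u' g = B (fun y => w y * χ y) u g

theorem QF.pf (H : QF T B) (hw : Cc w) (h0 : ∀ y, 0 ≤ w y) : PF T (B w) :=
  ⟨H.bf w hw, H.pos w hw h0⟩

theorem QF.mono (H : QF T B) (hw : Cc w) (hw' : Cc w') (h : ∀ y, w y ≤ w' y) (hf : f ∈ T) :
    B w f f ≤ B w' f f := by
  have h1 := H.pos _ (hw'.add (hw.smul (-1))) (fun y => by linarith [h y]) f hf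
  rw [H.wadd _ _ hw' (hw.smul _) f hf f hf, H.wsmul _ hw _ f hf f hf] at h1
  linarith

theorem QF.abs_bd (H : QF T B) (hw : Cc w) (hχ : Cc χ) {C : ℝ} (hC : 0 ≤ C)
    (h : ∀ y, |w y| ≤ C * χ y) (hf : f ∈ T) (hg : g ∈ T) :
    |B w g f| ≤ 2 * C * (√(B χ f f) * √(B χ g g)) := by
  have key : ∀ s : ℝ, |s| ≤ 1 → |C * B χ g f + s * B w g f| ≤
      2 * C * (√(B χ f f) * √(B χ g g)) := fun s hs => by
    have h1 : Cc fun y => C * χ y + s * w y := (hχ.smul C).add (hw.smul s)
    have h2 : ∀ y, |s * w y| ≤ C * χ y := fun y => by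
      rw [abs_mul]; nlinarith [h y, abs_nonneg (w y)]
    have h3 : ∀ x ∈ T, √(B (fun y => C * χ y + s * w y) x x) ≤ √(2 * C) * √(B χ x x) :=
      fun x hx => by
        rw [← Real.sqrt_mul (by positivity), ← H.wsmul _ hχ _ x hx x hx]
        exact Real.sqrt_le_sqrt (H.mono h1 (hχ.smul _)
          (fun y => by linarith [(abs_le.1 (h2 y)).2]) hx)
    have h4 := (H.pf h1 fun y => by linarith [(abs_le.1 (h2 y)).1]).cs hf hg
    rw [H.wadd _ _ (hχ.smul C) (hw.smul s) g hg f hf, H.wsmul _ hχ _ g hg f hf,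
      H.wsmul _ hw _ g hg f hf] at h4
    refine h4.trans ((mul_le_mul (h3 f hf) (h3 g hg) (Real.sqrt_nonneg _) (by positivity)).trans
      (le_of_eq ?_))
    rw [mul_mul_mul_comm, Real.mul_self_sqrt (by positivity)]
  have h1 := abs_le.1 (key 1 (by simp))
  have h2 := abs_le.1 (key (-1) (by simp))
  exact abs_le.2 ⟨by linarith, by linarith⟩

theorem QF.abs_diff (H : QF T B) (a : Af T V A) (hw : Cc w) (hχ : Cc χ) (h0 : ∀ y, 0 ≤ χ y) {C : ℝ}
    (hC : 0 ≤ C) (h : ∀ y, |w y| ≤ C * χ y) (hf : f ∈ A) (hg : g ∈ A) :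
    |B w f f - B w g g| ≤ 2 * C * (√(4 * mn (B χ) A + 2 * (ex (B χ) A f + ex (B χ) A g)) *
      √(2 * (ex (B χ) A f + ex (B χ) A g))) := by
  have h1 := a.sub f hf
  have h2 := a.sub g hg
  have P := H.pf hχ h0
  rw [(H.bf w hw).diff h1 h2]
  refine (H.abs_bd hw hχ hC h (T.add_mem h1 h2) (T.sub_mem h1 h2)).trans ?_
  have h3 := P.pos _ (T.sub_mem h1 h2)
  have h4 := par P a hf hg
  have h5 : B χ (f + g) (f + g) ≤ 4 * mn (B χ) A + 2 * (ex (B χ) A f + ex (B χ) A g) := by
    rw [P.sq_sub h1 h2] at h3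
    rw [P.sq_add' h1 h2]
    unfold ex
    linarith
  gcongr
  linarith

/-- the excess is monotone in the cut-off -/
theorem QF.ex_mono (H : QF T B) (a : Af T V A) (hL : Loc T V B) (hχ : Cu χ) (hχ' : Cc χ')
    (h0 : ∀ y, 0 ≤ χ' y) (h1 : ∀ y, χ' y * χ y = χ y) (hf : f ∈ A) :
    ex (B χ) A f ≤ ex (B χ') A f := by
  have h2 : ∀ g ∈ A, B χ f f - ex (B χ') A f ≤ B χ g g := fun g hg => by
    have hu := a.diff g hg f hf
    obtain ⟨u', hu', h3⟩ := hL χ hχ _ hu
    have hfT := a.sub f hf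
    have h4 := mn_le (H.pf hχ' h0) a (a.add f hf _ hu')
    have e : (fun y => χ' y * χ y) = χ := funext h1
    rw [(H.bf _ hχ').sq_add' hfT (a.le hu'), h3 _ hχ' _ hfT, h3 _ hχ' _ (a.le hu'), e,
      (H.bf _ hχ.cc).symm _ (a.le hu) _ (a.le hu'), h3 _ hχ.cc _ (a.le hu)] at h4
    have h5 := H.mono (hχ.cc.mul hχ.cc.1) hχ.cc
      (fun y => by nlinarith [hχ.nn y, hχ.le y]) (a.le hu)
    have h6 := (H.bf _ hχ.cc).sq_add' hfT (a.le hu)
    rw [add_sub_cancel] at h6
    unfold ex
    linarith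
  have h3 : B χ f f - ex (B χ') A f ≤ mn (B χ) A :=
    le_csInf (a.ne.image _) (by rintro _ ⟨g, hg, rfl⟩; exact h2 g hg)
  unfold ex at h3 ⊢
  linarith

/-- the standard cut-off functions -/
def cutB (k : ℕ) : ContDiffBump (0 : Y) := ⟨k + 1, k + 2, by positivity, by linarith⟩

/-- the standard cut-off functions -/
def cut (k : ℕ) (y : Y) : ℝ := cutB (Y := Y) k y

theorem cu_cut (k : ℕ) : Cu (cut k : Y → ℝ) :=
  ⟨(cutB k).contDiff, (cutB k).hasCompactSupport, fun _ => (cutB k).nonneg,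
    fun _ => (cutB k).le_one⟩

theorem ev_cut {K : Set Y} (hK : IsCompact K) : ∀ᶠ k : ℕ in atTop, ∀ y ∈ K, (cut k : Y → ℝ) y = 1 := by
  obtain ⟨R, hR⟩ := hK.isBounded.subset_closedBall 0
  filter_upwards [tendsto_natCast_atTop_atTop.eventually (eventually_ge_atTop R)] with k hk y hy
  exact (cutB k).one_of_mem_closedBall
    (Metric.closedBall_subset_closedBall (hk.trans (by simp [cutB])) (hR hy))

theorem Cc.exists_le (hw : Cc w) : ∃ χ, Cu χ ∧ ∃ C : ℝ, 0 ≤ C ∧ (∀ y ∈ tsupport w, χ y = 1) ∧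
    ∀ y, |w y| ≤ C * χ y := by
  obtain ⟨k, hk⟩ := (ev_cut hw.2).exists
  obtain ⟨C, hC⟩ := hw.1.bounded_above_of_compact_support hw.2
  refine ⟨_, cu_cut k, |C|, abs_nonneg _, hk, fun y => ?_⟩
  by_cases hy : y ∈ tsupport w
  · rw [hk y hy, mul_one]; exact (hC y).trans (le_abs_self C)
  · rw [image_eq_zero_of_notMem_tsupport hy, abs_zero]
    exact mul_nonneg (abs_nonneg _) ((cu_cut k).nn y)

theorem tend_err (C m : ℝ) :
    Tendsto (fun x : ℝ => 2 * C * (√(4 * m + 2 * x) * √(2 * x))) (𝓝 0) (𝓝 0) := by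
  have h : Continuous fun x : ℝ => 2 * C * (√(4 * m + 2 * x) * √(2 * x)) := by fun_prop
  simpa using h.tendsto 0

variable [MeasurableSpace Y] [BorelSpace Y]

/-- **global minimising sequence and the limit measure** -/
theorem exists_glob (H : QF T B) (a : Af T V A) (hL : Loc T V B) :
    ∃ (f : ℕ → W) (ν : Measure Y), IsLocallyFiniteMeasure ν ∧ (∀ k, f k ∈ A) ∧
      (∀ χ, Cu χ → Tendsto (fun k => ex (B χ) A (f k)) atTop (𝓝 0)) ∧
      (∀ w, Cc w → Tendsto (fun k => B w (f k) (f k)) atTop (𝓝 (∫ y, w y ∂ν))) ∧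
      ∀ χ, Cu χ → ∀ w, Cc w → ∀ C : ℝ, 0 ≤ C → (∀ y, |w y| ≤ C * χ y) → ∀ η : ℝ, 0 < η →
        ∃ δ, 0 < δ ∧ ∀ F ∈ A, ex (B χ) A F ≤ δ → |B w F F - ∫ y, w y ∂ν| ≤ η := by
  choose f h1 h2 using fun k : ℕ =>
    exists_ex (B (cut k : Y → ℝ)) a (Nat.one_div_pos_of_nat (n := k))
  have h3 : ∀ χ, Cu χ → Tendsto (fun k => ex (B χ) A (f k)) atTop (𝓝 0) := fun χ hχ => by
    refine squeeze_zero' (Eventually.of_forall fun k => ex_nonneg (H.pf hχ.cc hχ.nn) a (h1 k)) ?_
      tendsto_one_div_add_atTop_nhds_zero_nat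
    filter_upwards [ev_cut hχ.cpt] with k hk
    refine (H.ex_mono a hL hχ (cu_cut k).cc (cu_cut k).nn (fun y => ?_) (h1 k)).trans (h2 k)
    by_cases hy : y ∈ tsupport χ
    · rw [hk y hy, one_mul]
    · rw [image_eq_zero_of_notMem_tsupport hy, mul_zero]
  have h4 : ∀ w : C_c(Y, ℝ), ∃ x, Tendsto (fun k => B w (f k) (f k)) atTop (𝓝 x) := fun w => by
    have hw : Cc (w : Y → ℝ) := ⟨w.continuous, w.hasCompactSupport⟩
    obtain ⟨χ, hχ, C, hC, -, h5⟩ := hw.exists_le
    refine cauchySeq_tendsto_of_complete (cauchySeq_iff_tendsto_dist_atTop_0.2 ?_)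
    have h6 : Tendsto (fun p : ℕ × ℕ => ex (B χ) A (f p.1) + ex (B χ) A (f p.2)) atTop (𝓝 0) := by
      rw [← prod_atTop_atTop_eq]
      simpa using ((h3 χ hχ).comp tendsto_fst).add ((h3 χ hχ).comp tendsto_snd)
    exact squeeze_zero (fun _ => dist_nonneg)
      (fun p => H.abs_diff a hw hχ.cc hχ.nn hC h5 (h1 p.1) (h1 p.2))
      ((tend_err C (mn (B χ) A)).comp h6)
  choose Λ hΛ using h4
  have hc : ∀ w : C_c(Y, ℝ), Cc (w : Y → ℝ) := fun w => ⟨w.continuous, w.hasCompactSupport⟩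
  let L : C_c(Y, ℝ) →ₚ[ℝ] ℝ :=
    { toFun := Λ
      map_add' := fun w w' => tendsto_nhds_unique (hΛ _) (((hΛ w).add (hΛ w')).congr fun k =>
        (H.wadd _ _ (hc w) (hc w') _ (a.sub _ (h1 k)) _ (a.sub _ (h1 k))).symm)
      map_smul' := fun c w => tendsto_nhds_unique (hΛ _) (((hΛ w).const_mul c).congr fun k =>
        (H.wsmul _ (hc w) c _ (a.sub _ (h1 k)) _ (a.sub _ (h1 k))).symm)
      monotone' := fun w w' h => le_of_tendsto_of_tendsto' (hΛ w) (hΛ w') fun k =>
        H.mono (hc w) (hc w') h (a.sub _ (h1 k)) }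
  have h5 : ∀ w, Cc w → Tendsto (fun k => B w (f k) (f k)) atTop
      (𝓝 (∫ y, w y ∂(RealRMK.rieszMeasure L))) := fun w hw => by
    have h6 := RealRMK.integral_rieszMeasure L ⟨⟨w, hw.1⟩, hw.2⟩
    exact h6 ▸ hΛ ⟨⟨w, hw.1⟩, hw.2⟩
  refine ⟨f, RealRMK.rieszMeasure L, inferInstance, h1, h3, h5, fun χ hχ w hw C hC h6 η hη => ?_⟩
  obtain ⟨δ, hδ, h7⟩ := Metric.tendsto_nhds_nhds.1 (tend_err C (mn (B χ) A)) η hη
  refine ⟨δ / 3, by positivity, fun F hF h8 => ?_⟩
  refine le_of_tendsto ((h5 w hw).const_sub (B w F F)).abs ?_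
  filter_upwards [(h3 χ hχ).eventually (gt_mem_nhds (by positivity : 0 < δ / 3))] with k hk
  have P := H.pf hχ.cc hχ.nn
  have h9 := h7 (x := ex (B χ) A F + ex (B χ) A (f k)) (by
    rw [Real.dist_eq, sub_zero, abs_of_nonneg (add_nonneg (ex_nonneg P a hF) (ex_nonneg P a (h1 k)))]
    linarith)
  rw [Real.dist_eq, sub_zero] at h9
  exact (H.abs_diff a hw hχ.cc hχ.nn hC h6 hF (h1 k)).trans ((le_abs_self _).trans h9.le)

end weight

end Crest.Agent.X261.Fam79
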